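import Vale.Agent.P049.TS.W945.Exact

/-!
The bilinear form `bet A B X Y = tr (Ω_A X Ω_B Yᵀ)` and its Cauchy–Schwarz bound by the seminorm
`sn A B X = ‖A X B‖² + ‖A X‖² + ‖X B‖² + ‖X‖²` (squared), which factorises on rank-one matrices.
-/

set_option linter.unusedSectionVars false

namespace Vale.Agent.P049.TS.W945

open Matrix Finset

variable {ι : Type*} [Fintype ι] [DecidableEq ι]
variable {A B X Y : Matrix ι ι ℝ}

/-! ### bilinearity -/

theorem bet_add_left (X X' Y : Matrix ι ι ℝ) : bet A B (X + X') Y = bet A B X Y + bet A B X' Y := by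
  unfold bet
  rw [Matrix.mul_add, Matrix.add_mul, Matrix.add_mul, Matrix.trace_add]

theorem bet_add_right (X Y Y' : Matrix ι ι ℝ) : bet A B X (Y + Y') = bet A B X Y + bet A B X Y' := by
  unfold bet
  rw [Matrix.transpose_add, Matrix.mul_add, Matrix.trace_add]

theorem bet_smul_left (c : ℝ) (X Y : Matrix ι ι ℝ) : bet A B (c • X) Y = c * bet A B X Y := by
  unfold bet
  rw [Matrix.mul_smul, Matrix.smul_mul, Matrix.smul_mul, Matrix.trace_smul, smul_eq_mul]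

theorem bet_smul_right (c : ℝ) (X Y : Matrix ι ι ℝ) : bet A B X (c • Y) = c * bet A B X Y := by
  unfold bet
  rw [Matrix.transpose_smul, Matrix.mul_smul, Matrix.trace_smul, smul_eq_mul]

/-- on rank-one matrices -/
theorem bet_vec (x y z w : ι → ℝ) :
    bet A B (vecMulVec x y) (vecMulVec z w)
      = (z ⬝ᵥ ((A ^ 2 - 1) *ᵥ x)) * (y ⬝ᵥ ((B ^ 2 - 1) *ᵥ w)) := by
  unfold bet
  have e : (A ^ 2 - 1) * vecMulVec x y * (B ^ 2 - 1) * (vecMulVec z w)ᵀ
      = (y ⬝ᵥ ((B ^ 2 - 1) *ᵥ w)) • vecMulVec ((A ^ 2 - 1) *ᵥ x) z := by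
    rw [Matrix.transpose_vecMulVec, Matrix.mul_assoc ((A ^ 2 - 1) * vecMulVec x y),
      Matrix.mul_vecMulVec, Matrix.mul_vecMulVec, Matrix.vecMulVec_mul_vecMulVec,
      Matrix.vecMulVec_smul]
  rw [e, Matrix.trace_smul, Matrix.trace_vecMulVec, smul_eq_mul, mul_comm,
    dotProduct_comm z]

/-! ### the seminorm -/

/-- squared seminorm -/
noncomputable def sn (A B X : Matrix ι ι ℝ) : ℝ :=
  Mat.frob (A * X * B) + Mat.frob (A * X) + Mat.frob (X * B) + Mat.frob X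

theorem sn_nonneg (A B X : Matrix ι ι ℝ) : 0 ≤ sn A B X := by
  unfold sn
  have h1 := Mat.frob_nonneg (A * X * B)
  have h2 := Mat.frob_nonneg (A * X)
  have h3 := Mat.frob_nonneg (X * B)
  have h4 := Mat.frob_nonneg X
  linarith

theorem trace_mul_transpose_le (M N : Matrix ι ι ℝ) :
    |(M * Nᵀ).trace| ≤ √(Mat.frob M) * √(Mat.frob N) := by
  have := Mat.abs_trace_mul_le M Nᵀ
  rwa [Mat.frob_transpose] at this

theorem cs4 (a b c d a' b' c' d' : ℝ) (ha : 0 ≤ a) (hb : 0 ≤ b) (hc : 0 ≤ c) (hd : 0 ≤ d)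
    (ha' : 0 ≤ a') (hb' : 0 ≤ b') (hc' : 0 ≤ c') (hd' : 0 ≤ d') :
    √a * √a' + √b * √b' + √c * √c' + √d * √d' ≤ √(a + b + c + d) * √(a' + b' + c' + d') := by
  rw [← Real.sqrt_mul (show 0 ≤ a + b + c + d by positivity) (a' + b' + c' + d')]
  refine Real.le_sqrt_of_sq_le ?_
  have h := Finset.sum_mul_sq_le_sq_mul_sq Finset.univ (![√a, √b, √c, √d]) (![√a', √b', √c', √d'])
  simp only [Fin.sum_univ_four, Matrix.cons_val_zero, Matrix.cons_val_one, Matrix.cons_val,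
    Real.sq_sqrt ha, Real.sq_sqrt hb, Real.sq_sqrt hc, Real.sq_sqrt hd,
    Real.sq_sqrt ha', Real.sq_sqrt hb', Real.sq_sqrt hc', Real.sq_sqrt hd'] at h
  exact h

theorem abs_bet_le (hA : A.IsSymm) (hB : B.IsSymm) (X Y : Matrix ι ι ℝ) :
    |bet A B X Y| ≤ √(sn A B X) * √(sn A B Y) := by
  have e : bet A B X Y = ((A * X * B) * (A * Y * B)ᵀ).trace - ((A * X) * (A * Y)ᵀ).trace
      - ((X * B) * (Y * B)ᵀ).trace + (X * Yᵀ).trace := by
    have t1 : ((A * X * B) * (A * Y * B)ᵀ).trace = (A ^ 2 * X * B ^ 2 * Yᵀ).trace := by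
      rw [Matrix.transpose_mul, Matrix.transpose_mul, hA.eq, hB.eq, sq, sq]
      calc (A * X * B * (B * (Yᵀ * A))).trace = ((A * X * B * B * Yᵀ) * A).trace := by
            simp only [Matrix.mul_assoc]
        _ = (A * (A * X * B * B * Yᵀ)).trace := Matrix.trace_mul_comm _ _
        _ = _ := by simp only [Matrix.mul_assoc]
    have t2 : ((A * X) * (A * Y)ᵀ).trace = (A ^ 2 * X * Yᵀ).trace := by
      rw [Matrix.transpose_mul, hA.eq, sq]
      calc (A * X * (Yᵀ * A)).trace = ((A * X * Yᵀ) * A).trace := by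
            simp only [Matrix.mul_assoc]
        _ = (A * (A * X * Yᵀ)).trace := Matrix.trace_mul_comm _ _
        _ = _ := by simp only [Matrix.mul_assoc]
    have t3 : ((X * B) * (Y * B)ᵀ).trace = (X * B ^ 2 * Yᵀ).trace := by
      rw [Matrix.transpose_mul, hB.eq, sq]
      simp only [Matrix.mul_assoc]
    rw [t1, t2, t3]
    unfold bet
    simp only [Matrix.sub_mul, Matrix.mul_sub, Matrix.one_mul, Matrix.mul_one, Matrix.trace_sub]
    ring
  rw [e]
  have h1 := trace_mul_transpose_le (A * X * B) (A * Y * B)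
  have h2 := trace_mul_transpose_le (A * X) (A * Y)
  have h3 := trace_mul_transpose_le (X * B) (Y * B)
  have h4 := trace_mul_transpose_le X Y
  have h5 := cs4 (Mat.frob (A * X * B)) (Mat.frob (A * X)) (Mat.frob (X * B)) (Mat.frob X)
    (Mat.frob (A * Y * B)) (Mat.frob (A * Y)) (Mat.frob (Y * B)) (Mat.frob Y)
    (Mat.frob_nonneg _) (Mat.frob_nonneg _) (Mat.frob_nonneg _) (Mat.frob_nonneg _)
    (Mat.frob_nonneg _) (Mat.frob_nonneg _) (Mat.frob_nonneg _) (Mat.frob_nonneg _)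
  unfold sn
  rw [abs_le] at h1 h2 h3 h4 ⊢
  constructor <;> linarith [h1.1, h1.2, h2.1, h2.2, h3.1, h3.2, h4.1, h4.2]

theorem frob_add_le (M N : Matrix ι ι ℝ) : Mat.frob (M + N) ≤ 2 * Mat.frob M + 2 * Mat.frob N := by
  unfold Mat.frob
  rw [Finset.mul_sum, Finset.mul_sum, ← Finset.sum_add_distrib]
  refine Finset.sum_le_sum fun i _ => ?_
  rw [Finset.mul_sum, Finset.mul_sum, ← Finset.sum_add_distrib]
  refine Finset.sum_le_sum fun j _ => ?_
  rw [Matrix.add_apply]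
  nlinarith [sq_nonneg (M i j - N i j)]

theorem sn_add_le (X Y : Matrix ι ι ℝ) : sn A B (X + Y) ≤ 2 * sn A B X + 2 * sn A B Y := by
  unfold sn
  rw [Matrix.mul_add, Matrix.add_mul, Matrix.add_mul]
  have h1 := frob_add_le (A * X * B) (A * Y * B)
  have h2 := frob_add_le (A * X) (A * Y)
  have h3 := frob_add_le (X * B) (Y * B)
  have h4 := frob_add_le X Y
  linarith

theorem frob_smul (c : ℝ) (M : Matrix ι ι ℝ) : Mat.frob (c • M) = c ^ 2 * Mat.frob M := by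
  unfold Mat.frob
  simp only [Matrix.smul_apply, smul_eq_mul, mul_pow, Finset.mul_sum]

theorem sn_smul (c : ℝ) (X : Matrix ι ι ℝ) : sn A B (c • X) = c ^ 2 * sn A B X := by
  unfold sn
  rw [Matrix.mul_smul, Matrix.smul_mul, Matrix.smul_mul]
  simp only [frob_smul]
  ring

/-- the quadratic form on a sum -/
theorem bet_split_le (hA : A.IsSymm) (hB : B.IsSymm) (X Y : Matrix ι ι ℝ) {p q : ℝ}
    (hp0 : 0 ≤ p) (hq0 : 0 ≤ q) (hp : sn A B X ≤ p ^ 2) (hq : sn A B Y ≤ q ^ 2) :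
    bet A B (X + Y) (X + Y) ≤ bet A B X X + 2 * p * q + q ^ 2 := by
  have sp : √(sn A B X) ≤ p := by
    rw [← Real.sqrt_sq hp0]; exact Real.sqrt_le_sqrt hp
  have sq' : √(sn A B Y) ≤ q := by
    rw [← Real.sqrt_sq hq0]; exact Real.sqrt_le_sqrt hq
  have h1 := abs_bet_le hA hB X Y
  have h2 := abs_bet_le hA hB Y X
  have h3 := abs_bet_le hA hB Y Y
  have m1 : √(sn A B X) * √(sn A B Y) ≤ p * q := mul_le_mul sp sq' (Real.sqrt_nonneg _) hp0
  have m2 : √(sn A B Y) * √(sn A B X) ≤ q * p := mul_le_mul sq' sp (Real.sqrt_nonneg _) hq0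
  have m3 : √(sn A B Y) * √(sn A B Y) ≤ q * q := mul_le_mul sq' sq' (Real.sqrt_nonneg _) hq0
  rw [bet_add_left, bet_add_right, bet_add_right]
  have k1 := (abs_le.1 h1).2
  have k2 := (abs_le.1 h2).2
  have k3 := (abs_le.1 h3).2
  nlinarith

/-! ### rank one -/

/-- `|A x|² + |x|²` -/
noncomputable def ph (A : Matrix ι ι ℝ) (x : ι → ℝ) : ℝ := (A *ᵥ x) ⬝ᵥ (A *ᵥ x) + x ⬝ᵥ x

theorem ph_nonneg (A : Matrix ι ι ℝ) (x : ι → ℝ) : 0 ≤ ph A x :=
  add_nonneg (Mat.dot_self_nonneg _) (Mat.dot_self_nonneg _)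

theorem frob_vec (x y : ι → ℝ) : Mat.frob (vecMulVec x y) = (x ⬝ᵥ x) * (y ⬝ᵥ y) := by
  unfold Mat.frob
  simp only [Matrix.vecMulVec_apply, dotProduct, Finset.sum_mul_sum]
  exact Finset.sum_congr rfl fun i _ => Finset.sum_congr rfl fun j _ => by ring

theorem sn_vec (hB : B.IsSymm) (x y : ι → ℝ) : sn A B (vecMulVec x y) = ph A x * ph B y := by
  have e1 : vecMulVec x y * B = vecMulVec x (B *ᵥ y) := by
    rw [Matrix.vecMulVec_mul, ← Matrix.mulVec_transpose, hB.eq]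
  unfold sn ph
  rw [Matrix.mul_vecMulVec, e1]
  have e2 : vecMulVec (A *ᵥ x) y * B = vecMulVec (A *ᵥ x) (B *ᵥ y) := by
    rw [Matrix.vecMulVec_mul, ← Matrix.mulVec_transpose, hB.eq]
  rw [e2]
  simp only [frob_vec]
  ring

theorem ph_add_le (x y : ι → ℝ) : ph A (x + y) ≤ 2 * ph A x + 2 * ph A y := by
  have key : ∀ u v : ι → ℝ, (u + v) ⬝ᵥ (u + v) ≤ 2 * (u ⬝ᵥ u) + 2 * (v ⬝ᵥ v) := by
    intro u v
    have h3 := Mat.dot_self_nonneg (u - v)
    simp only [dotProduct_add, add_dotProduct, dotProduct_sub, sub_dotProduct] at h3 ⊢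
    linarith
  unfold ph
  rw [Matrix.mulVec_add]
  have h1 := key (A *ᵥ x) (A *ᵥ y)
  have h2 := key x y
  linarith

theorem ph_smul (c : ℝ) (x : ι → ℝ) : ph A (c • x) = c ^ 2 * ph A x := by
  unfold ph
  rw [Matrix.mulVec_smul]
  simp only [dotProduct_smul, smul_dotProduct, smul_eq_mul]
  ring

end Vale.Agent.P049.TS.W945
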