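import Vale.Agent.P049.TS.W945.Bet
import Vale.Agent.P049.TS.Avg.Adm

/-!
The decomposition `h = h0 + (h1 + h3)` in rank-one pieces and the bounds of the seminorms of the
pieces.
-/

set_option linter.unusedSectionVars false

namespace Vale.Agent.P049.TS.W945

open Matrix Finset

variable {ι : Type*} [Fintype ι] [DecidableEq ι]
variable {A B : Matrix ι ι ℝ} {a b : ι}

/-- the unit vector -/
def ev (a : ι) : ι → ℝ := Pi.single a 1

/-- `r_Z = 1 / al` -/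
noncomputable def rr (Z : Matrix ι ι ℝ) (a b : ι) : ℝ := (al Z a b)⁻¹
/-- `u_Z = (1 - Z_ab) / al` -/
noncomputable def uu (Z : Matrix ι ι ℝ) (a b : ι) : ℝ := (al Z a b)⁻¹ * (1 - Z a b)

noncomputable def m0 (Z : Matrix ι ι ℝ) (a b : ι) : ι → ℝ :=
  (rr Z a b * Z b b) • ev a + uu Z a b • ev b
noncomputable def m1 (Z : Matrix ι ι ℝ) (a b : ι) : ι → ℝ :=
  uu Z a b • ev a + (rr Z a b * Z a a) • ev b

/-- the main part -/
noncomputable def h0 (A B : Matrix ι ι ℝ) (a b : ι) : Matrix ι ι ℝ :=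
  (uu A a b • vecMulVec (ev b) (A *ᵥ ev a) + uu A a b • vecMulVec (ev a) (A *ᵥ ev b)) +
  (uu B a b • vecMulVec (B *ᵥ ev a) (ev b) + uu B a b • vecMulVec (B *ᵥ ev b) (ev a))

noncomputable def h1 (A B : Matrix ι ι ℝ) (a b : ι) : Matrix ι ι ℝ :=
  ((rr A a b * A b b) • vecMulVec (ev a) (A *ᵥ ev a) +
    (rr A a b * A a a) • vecMulVec (ev b) (A *ᵥ ev b)) +
  ((rr B a b * B b b) • vecMulVec (B *ᵥ ev a) (ev a) +
    (rr B a b * B a a) • vecMulVec (B *ᵥ ev b) (ev b))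

noncomputable def h3 (A B : Matrix ι ι ℝ) (a b : ι) : Matrix ι ι ℝ :=
  ((A * B - 1) a a • vecMulVec (m0 A a b) (m0 B a b) +
    (A * B - 1) a b • vecMulVec (m0 A a b) (m1 B a b)) +
  ((A * B - 1) b a • vecMulVec (m1 A a b) (m0 B a b) +
    (A * B - 1) b b • vecMulVec (m1 A a b) (m1 B a b))

theorem hm_eq (hA : A.IsSymm) :
    hm A B a b = h0 A B a b + (h1 A B a b + h3 A B a b) := by
  have h1' : ∀ i, ∀ k : Fin 2, (B * Em a b) i k = B i (![a, b] k) := by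
    intro i k
    simp [Matrix.mul_apply, Em]
  have h2' : ∀ j, ∀ k : Fin 2, ((Em a b)ᵀ * A) k j = A (![a, b] k) j := by
    intro j k
    simp [Matrix.mul_apply, Em]
  have hE0 : ∀ i, Em a b i 0 = if i = a then (1 : ℝ) else 0 := fun i => rfl
  have hE1 : ∀ i, Em a b i 1 = if i = b then (1 : ℝ) else 0 := fun i => rfl
  ext i j
  have sA : ∀ x y, A x y = A y x := fun x y => hA.apply y x
  unfold hm h0 h1 h3 m0 m1 ev uu rr
  simp only [Matrix.add_apply, Matrix.mul_apply (M := Em a b * Bm A a b),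
    Matrix.mul_apply (M := B * Em a b * Bm B a b),
    Matrix.mul_apply (M := Em a b * (Bm A a b * blk (A * B - 1) a b * Bm B a b)),
    Matrix.mul_apply (M := B * Em a b), Matrix.mul_apply (M := Em a b), Fin.sum_univ_two, h1', h2',
    Matrix.mul_apply (M := Bm A a b * blk (A * B - 1) a b),
    Matrix.mul_apply (M := Bm A a b), Matrix.smul_apply, Matrix.vecMulVec_apply, smul_eq_mul,
    Pi.add_apply, Pi.smul_apply, Matrix.mulVec_single_one, Matrix.col_apply,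
    Matrix.transpose_apply]
  simp only [hE0, hE1, Bm, blk, Matrix.of_apply, Matrix.smul_apply, Matrix.cons_val_zero,
    Matrix.cons_val_one, Matrix.cons_val', Matrix.cons_val_fin_one, smul_eq_mul, Pi.single_apply]
  rw [sA a j, sA b j]
  ring

/-! ### entries -/

theorem ev_dot (a : ι) (v : ι → ℝ) : ev a ⬝ᵥ v = v a := by
  unfold ev; simp

theorem mulVec_ev (M : Matrix ι ι ℝ) (a i : ι) : (M *ᵥ ev a) i = M i a := by
  unfold ev; simp

theorem dot_ev_ev (M : Matrix ι ι ℝ) (a b : ι) : ev a ⬝ᵥ (M *ᵥ ev b) = M a b := by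
  rw [ev_dot, mulVec_ev]

theorem dot_ev_col (M Y : Matrix ι ι ℝ) (a b : ι) :
    ev a ⬝ᵥ (M *ᵥ (Y *ᵥ ev b)) = (M * Y) a b := by
  rw [Matrix.mulVec_mulVec, dot_ev_ev]

theorem dot_col_left {X : Matrix ι ι ℝ} (hX : X.IsSymm) (a : ι) (v : ι → ℝ) :
    (X *ᵥ ev a) ⬝ᵥ v = ev a ⬝ᵥ (X *ᵥ v) := Mat.symm_dot hX _ _

theorem dot_col_ev {X : Matrix ι ι ℝ} (hX : X.IsSymm) (M : Matrix ι ι ℝ) (a b : ι) :
    (X *ᵥ ev a) ⬝ᵥ (M *ᵥ ev b) = (X * M) a b := by
  rw [dot_col_left hX, Matrix.mulVec_mulVec, dot_ev_ev]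

theorem dot_col_col {X : Matrix ι ι ℝ} (hX : X.IsSymm) (M Y : Matrix ι ι ℝ) (a b : ι) :
    (X *ᵥ ev a) ⬝ᵥ (M *ᵥ (Y *ᵥ ev b)) = (X * M * Y) a b := by
  rw [dot_col_left hX, Matrix.mulVec_mulVec, Matrix.mulVec_mulVec, dot_ev_ev]

/-- `w_a + 1` -/
noncomputable def xx (A : Matrix ι ι ℝ) (a : ι) : ℝ := (A ^ 2) a a + 1
/-- `(A B² A)_aa + (A²)_aa` -/
noncomputable def zz (A B : Matrix ι ι ℝ) (a : ι) : ℝ := (A * B ^ 2 * A) a a + (A ^ 2) a a

theorem ph_ev (hA : A.IsSymm) (a : ι) : ph A (ev a) = xx A a := by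
  unfold ph xx
  rw [dot_col_ev hA A a a, ← sq, ev_dot]
  simp [ev]

theorem ph_col (hA : A.IsSymm) (hB : B.IsSymm) (a : ι) : ph B (A *ᵥ ev a) = zz A B a := by
  unfold ph zz
  rw [dot_col_ev hA A a a, ← sq, Mat.symm_dot hB, Matrix.mulVec_mulVec, dot_col_col hA,
    ← sq]

theorem xx_ge_one (hA : A.IsSymm) (a : ι) : 1 ≤ xx A a := by
  have := Mat.sq_diag_nonneg hA a
  unfold xx; linarith

theorem xx_pos (hA : A.IsSymm) (a : ι) : 0 < xx A a := lt_of_lt_of_le one_pos (xx_ge_one hA a)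

theorem zz_nonneg (hA : A.IsSymm) (hB : B.IsSymm) (a : ι) : 0 ≤ zz A B a := by
  rw [← ph_col hA hB]; exact ph_nonneg _ _

/-! ### the entries of `K = A B - 1` -/

theorem mul_apply_sq_le (hA : A.IsSymm) (hB : B.IsSymm) (a b : ι) :
    (A * B) a b ^ 2 ≤ (A ^ 2) a a * (B ^ 2) b b := by
  have e : (A * B) a b = (A *ᵥ ev a) ⬝ᵥ (B *ᵥ ev b) := (dot_col_ev hA B a b).symm
  have h := Mat.dot_sq_le (A *ᵥ ev a) (B *ᵥ ev b)
  rw [← e, dot_col_ev hA A a a, dot_col_ev hB B b b, ← sq, ← sq] at h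
  exact h

theorem K_sq_le (hA : A.IsSymm) (hB : B.IsSymm) (a b : ι) :
    (A * B - 1) a b ^ 2 ≤ 2 * (xx A a * xx B b) := by
  have h := mul_apply_sq_le hA hB a b
  have h1 := Mat.sq_diag_nonneg hA a
  have h2 := Mat.sq_diag_nonneg hB b
  have h3 : (1 : Matrix ι ι ℝ) a b ^ 2 ≤ 1 := by
    rw [Matrix.one_apply]; split_ifs <;> norm_num
  rw [Matrix.sub_apply]
  unfold xx
  nlinarith [sq_nonneg ((A * B) a b + (1 : Matrix ι ι ℝ) a b)]

/-! ### coefficient bounds -/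

theorem rr_sq_le (h : PairOK A a b) : rr A a b ^ 2 ≤ 64 / 25 := by
  have h1 := h.inv_le
  have h2 : 0 ≤ (al A a b)⁻¹ := (inv_pos.2 h.al_pos).le
  unfold rr
  nlinarith

theorem uu_sq_le (h : PairOK A a b) : uu A a b ^ 2 ≤ 81 / 25 := by
  have h1 := h.abs_off_le
  unfold uu
  rw [← sq_abs]
  have := abs_nonneg ((al A a b)⁻¹ * (1 - A a b))
  nlinarith

/-! ### the seminorms of the pieces -/

theorem sn_four_le (X Y U V : Matrix ι ι ℝ) :
    sn A B ((X + Y) + (U + V)) ≤ 4 * (sn A B X + sn A B Y + sn A B U + sn A B V) := by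
  have h1 := sn_add_le (A := A) (B := B) (X + Y) (U + V)
  have h2 := sn_add_le (A := A) (B := B) X Y
  have h3 := sn_add_le (A := A) (B := B) U V
  linarith

theorem sn_h0_le (hA : A.IsSymm) (hB : B.IsSymm) (hp : PairOK A a b) (hm : PairOK B a b) :
    sn A B (h0 A B a b) ≤ 13 * ((xx A b * zz A B a + xx A a * zz A B b) +
      (zz B A a * xx B b + zz B A b * xx B a)) := by
  refine (sn_four_le _ _ _ _).trans ?_
  simp only [sn_smul, sn_vec hB, ph_ev hA, ph_ev hB, ph_col hA hB, ph_col hB hA]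
  have a1 := uu_sq_le hp
  have a2 := uu_sq_le hm
  have x1 := (xx_pos hA a).le
  have x2 := (xx_pos hA b).le
  have x3 := (xx_pos hB a).le
  have x4 := (xx_pos hB b).le
  have z1 := zz_nonneg hA hB a
  have z2 := zz_nonneg hA hB b
  have z3 := zz_nonneg hB hA a
  have z4 := zz_nonneg hB hA b
  have k1 := mul_le_mul_of_nonneg_right a1 (mul_nonneg x2 z1)
  have k2 := mul_le_mul_of_nonneg_right a1 (mul_nonneg x1 z2)
  have k3 := mul_le_mul_of_nonneg_right a2 (mul_nonneg z3 x4)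
  have k4 := mul_le_mul_of_nonneg_right a2 (mul_nonneg z4 x3)
  have p1 := mul_nonneg x2 z1
  have p2 := mul_nonneg x1 z2
  have p3 := mul_nonneg z3 x4
  have p4 := mul_nonneg z4 x3
  linarith

theorem sn_h1_le (hA : A.IsSymm) (hB : B.IsSymm) (hp : PairOK A a b) (hm : PairOK B a b) :
    sn A B (h1 A B a b) ≤ 11 * ((A b b ^ 2 * (xx A a * zz A B a) + A a a ^ 2 * (xx A b * zz A B b)) +
      (B b b ^ 2 * (xx B a * zz B A a) + B a a ^ 2 * (xx B b * zz B A b))) := by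
  refine (sn_four_le _ _ _ _).trans ?_
  simp only [sn_smul, sn_vec hB, ph_ev hA, ph_ev hB, ph_col hA hB, ph_col hB hA, mul_pow]
  have a1 := rr_sq_le hp
  have a2 := rr_sq_le hm
  have p1 : 0 ≤ A b b ^ 2 * (xx A a * zz A B a) :=
    mul_nonneg (sq_nonneg _) (mul_nonneg (xx_pos hA a).le (zz_nonneg hA hB a))
  have p2 : 0 ≤ A a a ^ 2 * (xx A b * zz A B b) :=
    mul_nonneg (sq_nonneg _) (mul_nonneg (xx_pos hA b).le (zz_nonneg hA hB b))
  have p3 : 0 ≤ B b b ^ 2 * (xx B a * zz B A a) :=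
    mul_nonneg (sq_nonneg _) (mul_nonneg (xx_pos hB a).le (zz_nonneg hB hA a))
  have p4 : 0 ≤ B a a ^ 2 * (xx B b * zz B A b) :=
    mul_nonneg (sq_nonneg _) (mul_nonneg (xx_pos hB b).le (zz_nonneg hB hA b))
  have k1 := mul_le_mul_of_nonneg_right a1 p1
  have k2 := mul_le_mul_of_nonneg_right a1 p2
  have k3 := mul_le_mul_of_nonneg_right a2 p3
  have k4 := mul_le_mul_of_nonneg_right a2 p4
  linarith

theorem ph_m0_le (hA : A.IsSymm) (hp : PairOK A a b) :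
    ph A (m0 A a b) ≤ 7 * (A b b ^ 2 * xx A a + xx A b) := by
  unfold m0
  refine (ph_add_le _ _).trans ?_
  rw [ph_smul, ph_smul, ph_ev hA, ph_ev hA, mul_pow]
  have a1 := rr_sq_le hp
  have a2 := uu_sq_le hp
  have p1 : 0 ≤ A b b ^ 2 * xx A a := mul_nonneg (sq_nonneg _) (xx_pos hA a).le
  have k1 := mul_le_mul_of_nonneg_right a1 p1
  have k2 := mul_le_mul_of_nonneg_right a2 (xx_pos hA b).le
  have := (xx_pos hA b).le
  linarith

theorem ph_m1_le (hA : A.IsSymm) (hp : PairOK A a b) :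
    ph A (m1 A a b) ≤ 7 * (A a a ^ 2 * xx A b + xx A a) := by
  unfold m1
  refine (ph_add_le _ _).trans ?_
  rw [ph_smul, ph_smul, ph_ev hA, ph_ev hA, mul_pow]
  have a1 := rr_sq_le hp
  have a2 := uu_sq_le hp
  have p1 : 0 ≤ A a a ^ 2 * xx A b := mul_nonneg (sq_nonneg _) (xx_pos hA b).le
  have k1 := mul_le_mul_of_nonneg_right a1 p1
  have k2 := mul_le_mul_of_nonneg_right a2 (xx_pos hA a).le
  have := (xx_pos hA a).le
  linarith

/-- `2 x_a x_b + Z_bb² x_a² + Z_aa² x_b²` -/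
noncomputable def yy (A : Matrix ι ι ℝ) (a b : ι) : ℝ :=
  2 * (xx A a * xx A b) + A b b ^ 2 * xx A a ^ 2 + A a a ^ 2 * xx A b ^ 2

theorem yy_ge (hA : A.IsSymm) (hp : PairOK A a b) :
    xx A a * ph A (m0 A a b) + xx A b * ph A (m1 A a b) ≤ 7 * yy A a b := by
  have k1 := mul_le_mul_of_nonneg_left (ph_m0_le hA hp) (xx_pos hA a).le
  have k2 := mul_le_mul_of_nonneg_left (ph_m1_le hA hp) (xx_pos hA b).le
  unfold yy
  linarith

theorem sn_h3_le (hA : A.IsSymm) (hB : B.IsSymm) (hp : PairOK A a b) (hm : PairOK B a b) :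
    sn A B (h3 A B a b) ≤ 392 * (yy A a b * yy B a b) := by
  refine (sn_four_le _ _ _ _).trans ?_
  simp only [sn_smul, sn_vec hB]
  have pa0 := ph_nonneg A (m0 A a b)
  have pa1 := ph_nonneg A (m1 A a b)
  have pb0 := ph_nonneg B (m0 B a b)
  have pb1 := ph_nonneg B (m1 B a b)
  have xa := (xx_pos hA a).le
  have xb := (xx_pos hA b).le
  have ya := (xx_pos hB a).le
  have yb := (xx_pos hB b).le
  have k1 := mul_le_mul_of_nonneg_right (K_sq_le hA hB a a) (mul_nonneg pa0 pb0)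
  have k2 := mul_le_mul_of_nonneg_right (K_sq_le hA hB a b) (mul_nonneg pa0 pb1)
  have k3 := mul_le_mul_of_nonneg_right (K_sq_le hA hB b a) (mul_nonneg pa1 pb0)
  have k4 := mul_le_mul_of_nonneg_right (K_sq_le hA hB b b) (mul_nonneg pa1 pb1)
  have y1 := yy_ge hA hp
  have y2 := yy_ge hB hm
  have q1 : 0 ≤ xx A a * ph A (m0 A a b) + xx A b * ph A (m1 A a b) :=
    add_nonneg (mul_nonneg xa pa0) (mul_nonneg xb pa1)
  have q2 : 0 ≤ xx B a * ph B (m0 B a b) + xx B b * ph B (m1 B a b) :=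
    add_nonneg (mul_nonneg ya pb0) (mul_nonneg yb pb1)
  have q3 := mul_le_mul y1 y2 q2 (q1.trans y1)
  nlinarith [q3]

end Vale.Agent.P049.TS.W945
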