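import Vale.Agent.P049.TS.Shell.Join4
import Vale.Agent.P049.TS.Mat.Basic

/-!
The exact increment of `W = tr (A² B²)` in one joining step, `Ω`-form:

`W' - W = (T₂(A') - T₂(A)) + (T₂(B') - T₂(B)) + 2 + 2 tr (h Ω_B Ω_A) + tr (Ω_A h Ω_B hᵀ)`,
`h = R_A R_Bᵀ - 1`, `Ω_A = A² - 1`, `Ω_B = B² - 1`.
-/

set_option linter.unusedSectionVars false

namespace Vale.Agent.P049.TS.W945

open Matrix Finset

variable {ι : Type*} [Fintype ι] [DecidableEq ι]
variable {A B : Matrix ι ι ℝ} {a b : ι}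

/-- `h = R_A R_Bᵀ - 1` -/
noncomputable def hm (A B : Matrix ι ι ℝ) (a b : ι) : Matrix ι ι ℝ :=
  Em a b * Bm A a b * ((Em a b)ᵀ * A) + B * Em a b * Bm B a b * (Em a b)ᵀ +
    Em a b * (Bm A a b * blk (A * B - 1) a b * Bm B a b) * (Em a b)ᵀ

theorem Rm_mul_RmT (hab : a ≠ b) (hA : A.IsSymm) (h : al A a b ≠ 0) (hB : B.IsSymm)
    (h' : al B a b ≠ 0) : Rm A a b * (Rm B a b)ᵀ = 1 + hm A B a b := by
  have hQ := Qm_mul_Qm (ι := ι) hab
  have hMP := Bm_mul_Pm hA h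
  have hPN := Pm_mul_Bm hB h'
  have hNt : (Bm B a b)ᵀ = Bm B a b := Bm_transpose
  have hPP := Pm_mul_Pm
  have hAB : blk (A * B - 1) a b = blk (A * B) a b - 1 := by rw [blk_sub, blk_one hab]
  have hRt : (Rm B a b)ᵀ = Qm a b * (1 + B * Em a b * Bm B a b * (Em a b)ᵀ) := by
    rw [Rm, Matrix.transpose_mul, Qm_transpose, Matrix.transpose_add, Matrix.transpose_one,
      Matrix.transpose_mul, Matrix.transpose_mul, Matrix.transpose_mul,
      Matrix.transpose_transpose, hNt, hB.eq]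
    simp only [Matrix.mul_assoc]
  have e1 : (1 + Em a b * Bm A a b * ((Em a b)ᵀ * A)) * Em a b
      = Em a b * (Bm A a b * Pm) := by
    rw [hMP, Matrix.add_mul, Matrix.one_mul, Matrix.mul_add, Matrix.mul_one,
      ← EmT_mul_mul_Em A a b]
    simp only [Matrix.mul_assoc]
  have e2 : (Em a b)ᵀ * (1 + B * Em a b * Bm B a b * (Em a b)ᵀ)
      = (Pm * Bm B a b) * (Em a b)ᵀ := by
    rw [hPN, Matrix.mul_add, Matrix.mul_one, Matrix.add_mul, Matrix.one_mul,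
      ← EmT_mul_mul_Em B a b]
    simp only [Matrix.mul_assoc]
  have e3 : (1 + Em a b * Bm A a b * ((Em a b)ᵀ * A)) * (Em a b * (Em a b)ᵀ) *
      (1 + B * Em a b * Bm B a b * (Em a b)ᵀ) =
      Em a b * (Bm A a b * Bm B a b) * (Em a b)ᵀ := by
    rw [← Matrix.mul_assoc, e1, Matrix.mul_assoc _ (Em a b)ᵀ, e2]
    calc Em a b * (Bm A a b * Pm) * (Pm * Bm B a b * (Em a b)ᵀ)
        = Em a b * (Bm A a b * (Pm * Pm) * Bm B a b) * (Em a b)ᵀ := by
          simp only [Matrix.mul_assoc]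
      _ = _ := by rw [hPP, Matrix.mul_one]
  have e4 : (Em a b * Bm A a b * ((Em a b)ᵀ * A)) * (B * Em a b * Bm B a b * (Em a b)ᵀ)
      = Em a b * (Bm A a b * blk (A * B) a b * Bm B a b) * (Em a b)ᵀ := by
    rw [← EmT_mul_mul_Em (A * B) a b]
    simp only [Matrix.mul_assoc]
  have e5 : Rm A a b * (Rm B a b)ᵀ = (1 + Em a b * Bm A a b * ((Em a b)ᵀ * A)) * Qm a b *
      (1 + B * Em a b * Bm B a b * (Em a b)ᵀ) := by
    rw [hRt, Rm]
    calc _ = (1 + Em a b * Bm A a b * ((Em a b)ᵀ * A)) * (Qm a b * Qm a b) *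
      (1 + B * Em a b * Bm B a b * (Em a b)ᵀ) := by simp only [Matrix.mul_assoc]
      _ = _ := by rw [hQ]
  rw [e5]
  unfold Qm
  rw [Matrix.mul_sub, Matrix.sub_mul, e3, Matrix.mul_one, Matrix.add_mul, Matrix.one_mul,
    Matrix.mul_add, Matrix.mul_one, e4, hm, hAB, Matrix.mul_sub, Matrix.mul_one, Matrix.sub_mul,
    Matrix.mul_sub, Matrix.sub_mul]
  abel

/-- the bilinear form `tr (Ω_A X Ω_B Yᵀ)` -/
def bet (A B X Y : Matrix ι ι ℝ) : ℝ := ((A ^ 2 - 1) * X * (B ^ 2 - 1) * Yᵀ).trace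

/-- **the exact increment of `W`** -/
theorem W_increment (hab : a ≠ b) (hA : A.IsSymm) (h : al A a b ≠ 0) (hB : B.IsSymm)
    (h' : al B a b ≠ 0) :
    (upd A a b ^ 2 * upd B a b ^ 2).trace - (A ^ 2 * B ^ 2).trace =
      ((upd A a b ^ 2).trace - (A ^ 2).trace) + ((upd B a b ^ 2).trace - (B ^ 2).trace) + 2 +
      2 * (hm A B a b * ((B ^ 2 - 1) * (A ^ 2 - 1))).trace +
      bet A B (hm A B a b) (hm A B a b) := by
  have hQ := Qm_mul_Qm (ι := ι) hab
  have hH := Rm_mul_RmT hab hA h hB h'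
  set H := hm A B a b with hHdef
  clear_value H
  have sA : (A ^ 2 - 1).IsSymm := (Mat.IsSymm_pow hA 2).sub Matrix.isSymm_one
  have sB : (B ^ 2 - 1).IsSymm := (Mat.IsSymm_pow hB 2).sub Matrix.isSymm_one
  have hRA := Rm_mul_Qm (Z := A) hab
  have hRB := Rm_mul_Qm (Z := B) hab
  have hA2 := upd_sq hab hA h
  have hB2 := upd_sq hab hB h'
  set X := (Rm A a b)ᵀ * (A ^ 2 - 1) * Rm A a b with hX
  set Y := (Rm B a b)ᵀ * (B ^ 2 - 1) * Rm B a b with hY
  have trQ : (Qm a b : Matrix ι ι ℝ).trace = (Fintype.card ι : ℝ) - 2 := by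
    unfold Qm
    rw [Matrix.trace_sub, Matrix.trace_one, Matrix.trace_mul_comm, EmT_mul_Em hab,
      Matrix.trace_one]
    simp
  have hXQ : X * Qm a b = X := by rw [hX, Matrix.mul_assoc, hRA]
  have hQY : (Qm a b * Y).trace = Y.trace := by
    rw [Matrix.trace_mul_comm, hY, Matrix.mul_assoc, hRB]
  have hXY : (X * Y).trace = ((A ^ 2 - 1) * (1 + H) * (B ^ 2 - 1) * (1 + H)ᵀ).trace := by
    rw [← hH, hX, hY, Matrix.transpose_mul, Matrix.transpose_transpose]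
    calc ((Rm A a b)ᵀ * (A ^ 2 - 1) * Rm A a b *
          ((Rm B a b)ᵀ * (B ^ 2 - 1) * Rm B a b)).trace
        = ((Rm A a b)ᵀ * ((A ^ 2 - 1) * (Rm A a b * (Rm B a b)ᵀ) * (B ^ 2 - 1) *
            Rm B a b)).trace := by simp only [Matrix.mul_assoc]
      _ = (((A ^ 2 - 1) * (Rm A a b * (Rm B a b)ᵀ) * (B ^ 2 - 1) *
            Rm B a b) * (Rm A a b)ᵀ).trace := Matrix.trace_mul_comm _ _
      _ = _ := by simp only [Matrix.mul_assoc]
  have hW : (upd A a b ^ 2 * upd B a b ^ 2).trace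
      = (Qm a b : Matrix ι ι ℝ).trace + X.trace + Y.trace + (X * Y).trace := by
    rw [hA2, hB2, Matrix.add_mul, Matrix.mul_add, Matrix.mul_add, hQ, hXQ, Matrix.trace_add,
      Matrix.trace_add, Matrix.trace_add, hQY]
    ring
  have hTA : (upd A a b ^ 2).trace = (Qm a b : Matrix ι ι ℝ).trace + X.trace := by
    rw [hA2, Matrix.trace_add]
  have hTB : (upd B a b ^ 2).trace = (Qm a b : Matrix ι ι ℝ).trace + Y.trace := by
    rw [hB2, Matrix.trace_add]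
  have hex : ((A ^ 2 - 1) * (1 + H) * (B ^ 2 - 1) * (1 + H)ᵀ).trace
      = ((A ^ 2 - 1) * (B ^ 2 - 1)).trace + 2 * (H * ((B ^ 2 - 1) * (A ^ 2 - 1))).trace
        + bet A B H H := by
    have k1 : ((A ^ 2 - 1) * H * (B ^ 2 - 1)).trace = (H * ((B ^ 2 - 1) * (A ^ 2 - 1))).trace := by
      rw [Matrix.mul_assoc, Matrix.trace_mul_comm]
      simp only [Matrix.mul_assoc]
    have k2 : ((A ^ 2 - 1) * (B ^ 2 - 1) * Hᵀ).trace = (H * ((B ^ 2 - 1) * (A ^ 2 - 1))).trace := by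
      rw [← Matrix.trace_transpose, Matrix.transpose_mul, Matrix.transpose_mul,
        Matrix.transpose_transpose, sA.eq, sB.eq]
    unfold bet
    rw [Matrix.transpose_add, Matrix.transpose_one]
    simp only [Matrix.mul_add, Matrix.add_mul, Matrix.mul_one, Matrix.trace_add]
    rw [k1, k2]
    ring
  have hOO : ((A ^ 2 - 1) * (B ^ 2 - 1)).trace
      = (A ^ 2 * B ^ 2).trace - (A ^ 2).trace - (B ^ 2).trace + Fintype.card ι := by
    rw [Matrix.sub_mul, Matrix.mul_sub, Matrix.mul_one, Matrix.one_mul, Matrix.trace_sub,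
      Matrix.trace_sub, Matrix.trace_sub, Matrix.trace_one]
    ring
  rw [hW, hTA, hTB, hXY, hex, hOO, trQ]
  ring

end Vale.Agent.P049.TS.W945
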