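import Vale.Agent.P049.TS.W945.Pt
import Vale.Agent.P049.TS.Drift.T12d
import Vale.Agent.P049.TS.T34.L2
import Vale.Agent.P049.TS.Tilt.RowS
import Vale.Agent.P049.TS.Mat.Spectral

/-!
Frobenius norms of the matrices of `W_pt` in terms of the parameters
`T₄ ≤ b⁴`, `T₂ ≤ t²`, `S ≤ s²`, `V ≤ v²`, `1 + v ≤ r²`, `Σ w² ≤ w²`, `N ≤ w²`, `W ≤ cw²`.
-/

set_option linter.unusedSectionVars false

namespace Vale.Agent.P049.TS.W945

open Matrix Finset T34

variable {ι : Type*} [Fintype ι] [DecidableEq ι]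

/-- the hypotheses on the two matrices -/
structure WC (F : Finset ι) (A B : Matrix ι ι ℝ) (b t s v r w cw : ℝ) : Prop where
  p : D12.Ctl F A b t s v w
  m : D12.Ctl F B b t s v w
  r0 : 0 ≤ r
  hr : 1 + v ≤ r ^ 2
  c0 : 0 ≤ cw
  W : (A ^ 2 * B ^ 2).trace ≤ cw ^ 2
  N : (F.card : ℝ) ≤ w ^ 2

variable {F : Finset ι} {A B : Matrix ι ι ℝ} {b t s v r w cw : ℝ}

theorem WC.swap (c : WC F A B b t s v r w cw) : WC F B A b t s v r w cw where
  p := c.m
  m := c.p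
  r0 := c.r0
  hr := c.hr
  c0 := c.c0
  W := by rw [Matrix.trace_mul_comm]; exact c.W
  N := c.N

/-! ### Frobenius calculus -/

theorem frob_add {M N : Matrix ι ι ℝ} {x y : ℝ} (hx : 0 ≤ x) (hy : 0 ≤ y)
    (hM : Mat.frob M ≤ x ^ 2) (hN : Mat.frob N ≤ y ^ 2) : Mat.frob (M + N) ≤ (x + y) ^ 2 := by
  have h := trace_mul_transpose_le M N
  have e : Mat.frob (M + N) = Mat.frob M + 2 * (M * Nᵀ).trace + Mat.frob N := by
    rw [Mat.frob_eq_trace', Mat.frob_eq_trace', Mat.frob_eq_trace', Matrix.transpose_add,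
      Matrix.add_mul, Matrix.mul_add, Matrix.mul_add, Matrix.trace_add, Matrix.trace_add,
      Matrix.trace_add, ← Matrix.trace_transpose (N * Mᵀ), Matrix.transpose_mul,
      Matrix.transpose_transpose]
    ring
  have h1 : √(Mat.frob M) ≤ x := D12.sqrt_le_of_sq hM hx
  have h2 : √(Mat.frob N) ≤ y := D12.sqrt_le_of_sq hN hy
  have h3 := mul_le_mul h1 h2 (Real.sqrt_nonneg _) hx
  have h4 := (abs_le.1 h).2
  rw [e]
  nlinarith

theorem frob_sub {M N : Matrix ι ι ℝ} {x y : ℝ} (hx : 0 ≤ x) (hy : 0 ≤ y)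
    (hM : Mat.frob M ≤ x ^ 2) (hN : Mat.frob N ≤ y ^ 2) : Mat.frob (M - N) ≤ (x + y) ^ 2 := by
  rw [sub_eq_add_neg]
  exact frob_add hx hy hM (by rwa [Mat.frob_neg])

theorem frob_mul {M N : Matrix ι ι ℝ} {x y : ℝ} (hM : Mat.frob M ≤ x ^ 2)
    (hN : Mat.frob N ≤ y ^ 2) : Mat.frob (M * N) ≤ (x * y) ^ 2 := by
  refine (Mat.frob_mul_le M N).trans ?_
  rw [mul_pow]
  exact mul_le_mul hM hN (Mat.frob_nonneg _) (sq_nonneg x)

theorem opB_frob {Z M : Matrix ι ι ℝ} {x y : ℝ} (hZ : Mat.OpB Z x) (hM : Mat.frob M ≤ y ^ 2) :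
    Mat.frob (Z * M) ≤ (x * y) ^ 2 := by
  refine (hZ.frob_mul_le M).trans ?_
  rw [mul_pow]
  exact mul_le_mul_of_nonneg_left hM (sq_nonneg x)

theorem opB_frob_right {Z M : Matrix ι ι ℝ} (hs : Z.IsSymm) {x y : ℝ} (hZ : Mat.OpB Z x)
    (hM : Mat.frob M ≤ y ^ 2) : Mat.frob (M * Z) ≤ (x * y) ^ 2 := by
  refine (hZ.frob_mul_le_right hs M).trans ?_
  rw [mul_pow]
  exact mul_le_mul_of_nonneg_left hM (sq_nonneg x)

theorem L2_of_frob {M : Matrix ι ι ℝ} {x : ℝ} (hx : 0 ≤ x) (hM : Mat.frob M ≤ x ^ 2)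
    (P : Finset (ι × ι)) : L2 P (fun p => M p.1 p.2) x := by
  refine ⟨hx, le_trans ?_ hM⟩
  unfold Mat.frob
  rw [← Fintype.sum_prod_type (f := fun p : ι × ι => M p.1 p.2 ^ 2)]
  exact Finset.sum_le_sum_of_subset_of_nonneg (Finset.subset_univ P) fun _ _ _ => sq_nonneg _

theorem L2_of_frob' {M : Matrix ι ι ℝ} {x : ℝ} (hx : 0 ≤ x) (hM : Mat.frob M ≤ x ^ 2)
    (P : Finset (ι × ι)) : L2 P (fun p => M p.2 p.1) x :=
  L2_of_frob (M := Mᵀ) hx (by rwa [Mat.frob_transpose]) P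

theorem L2_diag_of_frob {M : Matrix ι ι ℝ} {x : ℝ} (hx : 0 ≤ x) (hM : Mat.frob M ≤ x ^ 2)
    (F : Finset ι) : L2 F (fun a => M a a) x := by
  refine ⟨hx, le_trans ?_ hM⟩
  unfold Mat.frob
  refine (Finset.sum_le_sum fun a _ => ?_).trans
    (Finset.sum_le_sum_of_subset_of_nonneg (Finset.subset_univ F)
      fun _ _ _ => Finset.sum_nonneg fun _ _ => sq_nonneg _)
  exact Finset.single_le_sum (f := fun j => M a j ^ 2) (fun _ _ => sq_nonneg _)
    (Finset.mem_univ a)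

/-! ### norms -/

theorem WC.b0 (c : WC F A B b t s v r w cw) : 0 ≤ b := c.p.b0
theorem WC.t0 (c : WC F A B b t s v r w cw) : 0 ≤ t := c.p.t0
theorem WC.s0 (c : WC F A B b t s v r w cw) : 0 ≤ s := c.p.s0
theorem WC.v0 (c : WC F A B b t s v r w cw) : 0 ≤ v := c.p.v0
theorem WC.w0 (c : WC F A B b t s v r w cw) : 0 ≤ w := c.p.w0

theorem WC.frA (c : WC F A B b t s v r w cw) : Mat.frob A ≤ t ^ 2 := by
  rw [Mat.frob_eq_trace_sq c.p.symm]; exact c.p.T2

theorem WC.frA2 (c : WC F A B b t s v r w cw) : Mat.frob (A ^ 2) ≤ (b ^ 2) ^ 2 := by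
  rw [← Mat.trace_four_eq_frob c.p.symm]
  refine c.p.T4.trans (le_of_eq (by ring))

theorem WC.frA3 (c : WC F A B b t s v r w cw) : Mat.frob (A ^ 3) ≤ (b ^ 3) ^ 2 := by
  have h := opB_frob c.p.opB c.frA2
  rw [← pow_succ', show b * b ^ 2 = b ^ 3 by ring] at h
  exact h

theorem WC.frAB (c : WC F A B b t s v r w cw) : Mat.frob (A * B) ≤ cw ^ 2 := by
  rw [Mat.frob_mul_eq_trace c.p.symm c.m.symm]; exact c.W

theorem WC.frBA (c : WC F A B b t s v r w cw) : Mat.frob (B * A) ≤ cw ^ 2 := c.swap.frAB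

theorem WC.frAAB (c : WC F A B b t s v r w cw) : Mat.frob (A ^ 2 * B) ≤ (b * cw) ^ 2 := by
  rw [sq, Matrix.mul_assoc]
  exact opB_frob c.p.opB c.frAB

theorem WC.frBAA (c : WC F A B b t s v r w cw) : Mat.frob (B * A ^ 2) ≤ (b * cw) ^ 2 := by
  rw [sq, ← Matrix.mul_assoc]
  exact opB_frob_right c.p.symm c.p.opB c.frBA

theorem WC.frBBAA (c : WC F A B b t s v r w cw) :
    Mat.frob (B ^ 2 * A ^ 2) ≤ (b ^ 2 * cw) ^ 2 := by
  have h := opB_frob c.m.opB c.frBAA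
  rw [← Matrix.mul_assoc, ← sq, show b * (b * cw) = b ^ 2 * cw by ring] at h
  exact h

theorem WC.frABBA (c : WC F A B b t s v r w cw) :
    Mat.frob (A * B ^ 2 * A) ≤ (cw ^ 2) ^ 2 := by
  have h := frob_mul c.frAB c.frBA
  have e : A * B * (B * A) = A * B ^ 2 * A := by rw [sq]; simp only [Matrix.mul_assoc]
  rw [e, ← sq cw] at h
  exact h

theorem UU_eq : UU A B = A * B ^ 2 * A - A ^ 2 := by
  unfold UU
  rw [Matrix.mul_sub, Matrix.sub_mul, Matrix.mul_one, sq A]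

theorem YY_eq : YY A B = B * A ^ 2 - B := by
  unfold YY
  rw [Matrix.mul_sub, Matrix.mul_one]

theorem JJ_eq : JJ A B = B ^ 2 * A ^ 2 - B ^ 2 - A ^ 2 + 1 := by
  unfold JJ
  rw [Matrix.sub_mul, Matrix.mul_sub, Matrix.one_mul, Matrix.mul_one]
  abel

theorem GA_eq : GA A B = A * B ^ 2 * A * A - A * B ^ 2 - A ^ 3 + A := by
  unfold GA
  rw [JJ_eq, Matrix.mul_add, Matrix.mul_sub, Matrix.mul_sub, Matrix.mul_one, ← pow_succ']
  simp only [sq, Matrix.mul_assoc]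

theorem GB_eq_transpose (hA : A.IsSymm) (hB : B.IsSymm) : GB A B = (GA B A)ᵀ := by
  have sA : (A ^ 2 - 1).IsSymm := (Mat.IsSymm_pow hA 2).sub Matrix.isSymm_one
  have sB : (B ^ 2 - 1).IsSymm := (Mat.IsSymm_pow hB 2).sub Matrix.isSymm_one
  unfold GB GA JJ
  rw [Matrix.transpose_mul, Matrix.transpose_mul, sA.eq, sB.eq, hB.eq]

theorem WC.frUU (c : WC F A B b t s v r w cw) : Mat.frob (UU A B) ≤ (cw ^ 2 + b ^ 2) ^ 2 := by
  rw [UU_eq]
  exact frob_sub (sq_nonneg _) (sq_nonneg _) c.frABBA c.frA2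

theorem WC.frYY (c : WC F A B b t s v r w cw) : Mat.frob (YY A B) ≤ (b * cw + t) ^ 2 := by
  rw [YY_eq]
  exact frob_sub (mul_nonneg c.b0 c.c0) c.t0 c.frBAA c.swap.frA

/-- the size of `G` -/
def gK (b t cw : ℝ) : ℝ := b * cw ^ 2 + b * cw + b ^ 3 + t

theorem gK_nonneg (c : WC F A B b t s v r w cw) : 0 ≤ gK b t cw := by
  have := c.b0; have := c.t0; have := c.c0
  unfold gK; positivity

theorem WC.frGA (c : WC F A B b t s v r w cw) : Mat.frob (GA A B) ≤ gK b t cw ^ 2 := by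
  have := c.b0; have := c.t0; have := c.c0
  rw [GA_eq]
  unfold gK
  refine frob_add (by positivity) c.t0 (frob_sub (by positivity) (by positivity)
    (frob_sub (by positivity) (by positivity) ?_ ?_) c.frA3) c.frA
  · exact opB_frob_right c.p.symm c.p.opB c.frABBA
  · rw [sq B, ← Matrix.mul_assoc]
    exact opB_frob_right c.m.symm c.m.opB c.frAB

theorem WC.frGB (c : WC F A B b t s v r w cw) : Mat.frob (GB A B) ≤ gK b t cw ^ 2 := by
  rw [GB_eq_transpose c.p.symm c.m.symm, Mat.frob_transpose]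
  exact c.swap.frGA

/-! ### diagonals -/

theorem WC.w_le (c : WC F A B b t s v r w cw) (a : ι) : (A ^ 2) a a ≤ r ^ 2 := by
  refine le_trans ?_ c.hr
  by_cases ha : a ∈ F
  · have h1 : ((A ^ 2) a a - 1) ^ 2 ≤ v ^ 2 :=
      (Finset.single_le_sum (f := fun a => ((A ^ 2) a a - 1) ^ 2) (fun _ _ => sq_nonneg _)
        ha).trans c.p.V
    have := abs_le_of_sq_le_sq' h1 c.v0
    linarith [this.2]
  · have : (A ^ 2) a a = 0 := by
      rw [Mat.sq_diag_eq_sum c.p.symm]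
      refine Finset.sum_eq_zero fun j _ => ?_
      rw [c.p.supp a ha j]; norm_num
    rw [this]
    have := c.v0
    linarith

theorem WC.dA (c : WC F A B b t s v r w cw) : L2 F (fun a => A a a) s := ⟨c.s0, c.p.S⟩

theorem WC.dw (c : WC F A B b t s v r w cw) : L2 F (fun a => (A ^ 2) a a) w := ⟨c.w0, c.p.W⟩

theorem WC.d1 (c : WC F A B b t s v r w cw) : L2 F (fun _ => (1 : ℝ)) w :=
  L2.one_of_card c.w0 c.N

theorem WC.dg (c : WC F A B b t s v r w cw) : L2 F (fun a => OO A a a) v := by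
  refine ⟨c.v0, le_trans (le_of_eq (Finset.sum_congr rfl fun a _ => ?_)) c.p.V⟩
  show (A ^ 2 - 1 : Matrix ι ι ℝ) a a ^ 2 = _
  rw [Matrix.sub_apply, Matrix.one_apply_eq]

theorem L2neg {α : Type*} {P : Finset α} {f : α → ℝ} {x : ℝ} (hf : L2 P f x) :
    L2 P (fun p => -f p) x := hf.of_le fun p _ => by rw [abs_neg]

/-- sum of two arrays -/
theorem L2add {α : Type*} {P : Finset α} {f g h : α → ℝ} {x y : ℝ} (hf : L2 P f x)
    (hg : L2 P g y) (e : ∀ a ∈ P, h a = f a + g a) : L2 P h (x + y) :=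
  (hf.add hg).of_le fun a ha => by rw [e a ha]

/-- difference of two arrays -/
theorem L2sub {α : Type*} {P : Finset α} {f g h : α → ℝ} {x y : ℝ} (hf : L2 P f x)
    (hg : L2 P g y) (e : ∀ a ∈ P, h a = f a - g a) : L2 P h (x + y) :=
  L2add hf (L2neg hg) fun a ha => by rw [e a ha, sub_eq_add_neg]

/-- `(Σ w_a w'_a) ≤ w²` in `ℓ²` form for `(A B)_aa` -/
theorem WC.dAB (c : WC F A B b t s v r w cw) : L2 F (fun a => (A * B) a a) w := by
  refine ⟨c.w0, ?_⟩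
  have h1 : ∀ a ∈ F, (A * B) a a ^ 2 ≤ |(A ^ 2) a a| * |(B ^ 2) a a| := by
    intro a _
    rw [abs_of_nonneg (Mat.sq_diag_nonneg c.p.symm a), abs_of_nonneg (Mat.sq_diag_nonneg c.m.symm a)]
    exact mul_apply_sq_le c.p.symm c.m.symm a a
  refine (Finset.sum_le_sum h1).trans ?_
  rw [sq w]
  exact c.dw.sum_mul_le c.swap.dw

theorem WC.dKK (c : WC F A B b t s v r w cw) : L2 F (fun a => KK A B a a) (2 * w) := by
  have h : L2 F (fun a => KK A B a a) (w + w) := L2sub c.dAB c.d1 fun a _ => by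
    show (A * B - 1 : Matrix ι ι ℝ) a a = _
    rw [Matrix.sub_apply, Matrix.one_apply_eq]
  rwa [← two_mul] at h

/-- `(B² A²)_aa` -/
theorem abs_BBAA_le (hA : A.IsSymm) (hB : B.IsSymm) (a : ι) {x : ℝ}
    (h : Mat.OpB (B * A) x) :
    (B ^ 2 * A ^ 2) a a ^ 2 ≤ x ^ 2 * ((A ^ 2) a a * (B ^ 2) a a) := by
  have e : (B ^ 2 * A ^ 2) a a = (B *ᵥ ev a) ⬝ᵥ ((B * A) *ᵥ (A *ᵥ ev a)) := by
    rw [dot_col_col hB (B * A) A a a, sq, sq]
    simp only [Matrix.mul_assoc]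
  have h1 := Mat.dot_sq_le (B *ᵥ ev a) ((B * A) *ᵥ (A *ᵥ ev a))
  have h2 := h (A *ᵥ ev a)
  rw [← e, dot_col_ev hB B a a, ← sq] at h1
  rw [dot_col_ev hA A a a, ← sq] at h2
  have h3 := Mat.sq_diag_nonneg hB a
  calc _ ≤ _ := h1
    _ ≤ (B ^ 2) a a * (x ^ 2 * (A ^ 2) a a) := mul_le_mul_of_nonneg_left h2 h3
    _ = _ := by ring

theorem WC.dBBAA (c : WC F A B b t s v r w cw) : L2 F (fun a => (B ^ 2 * A ^ 2) a a) (cw * w) := by
  refine ⟨mul_nonneg c.c0 c.w0, ?_⟩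
  have hop : Mat.OpB (B * A) cw := Mat.opB_of_frob c.frBA
  have h1 : ∀ a ∈ F, (B ^ 2 * A ^ 2) a a ^ 2 ≤ cw ^ 2 * (|(A ^ 2) a a| * |(B ^ 2) a a|) := by
    intro a _
    rw [abs_of_nonneg (Mat.sq_diag_nonneg c.p.symm a), abs_of_nonneg (Mat.sq_diag_nonneg c.m.symm a)]
    exact abs_BBAA_le c.p.symm c.m.symm a hop
  refine (Finset.sum_le_sum h1).trans ?_
  rw [← Finset.mul_sum, mul_pow, sq w]
  exact mul_le_mul_of_nonneg_left (c.dw.sum_mul_le c.swap.dw) (sq_nonneg _)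

theorem WC.dJJ (c : WC F A B b t s v r w cw) :
    L2 F (fun a => JJ A B a a) (cw * w + 3 * w) := by
  have h1 : L2 F (fun a => (B ^ 2 * A ^ 2) a a - (B ^ 2) a a) (cw * w + w) :=
    L2sub c.dBBAA c.swap.dw fun _ _ => rfl
  have h2 : L2 F (fun a => (B ^ 2 * A ^ 2) a a - (B ^ 2) a a - (A ^ 2) a a) (cw * w + w + w) :=
    L2sub h1 c.dw fun _ _ => rfl
  have h3 : L2 F (fun a => JJ A B a a) (cw * w + w + w + w) := L2add h2 c.d1 fun a _ => by
    rw [JJ_eq]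
    simp only [Matrix.add_apply, Matrix.sub_apply, Matrix.one_apply_eq]
  exact h3.mono (by linarith)

theorem WC.dUU (c : WC F A B b t s v r w cw) : L2 F (fun a => UU A B a a) (cw ^ 2 + w) := by
  refine L2sub (L2_diag_of_frob (sq_nonneg _) c.frABBA F) c.dw fun a _ => ?_
  rw [UU_eq, Matrix.sub_apply]

/-- `(B A²)_aa² ≤ (A B² A)`-type bound: `|row_a (B A)|² w_a` -/
theorem BAA_sq_le (hA : A.IsSymm) (a : ι) :
    (B * A ^ 2) a a ^ 2 ≤ (∑ j, (B * A) a j ^ 2) * (A ^ 2) a a := by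
  have e : (B * A ^ 2) a a = ∑ j, (B * A) a j * A j a := by
    rw [sq, ← Matrix.mul_assoc, Matrix.mul_apply]
  rw [e, Mat.sq_diag_eq_sum hA]
  refine (Finset.sum_mul_sq_le_sq_mul_sq _ _ _).trans (le_of_eq ?_)
  congr 1
  exact Finset.sum_congr rfl fun j _ => by rw [hA.apply a j]

theorem WC.dBAA (c : WC F A B b t s v r w cw) : L2 F (fun a => (B * A ^ 2) a a) (r * cw) := by
  refine ⟨mul_nonneg c.r0 c.c0, ?_⟩
  have h1 : ∀ a ∈ F, (B * A ^ 2) a a ^ 2 ≤ (∑ j, (B * A) a j ^ 2) * r ^ 2 := fun a _ =>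
    (BAA_sq_le c.p.symm a).trans (mul_le_mul_of_nonneg_left (c.w_le a)
      (Finset.sum_nonneg fun _ _ => sq_nonneg _))
  refine (Finset.sum_le_sum h1).trans ?_
  rw [← Finset.sum_mul, mul_pow, mul_comm (r ^ 2)]
  refine mul_le_mul_of_nonneg_right ?_ (sq_nonneg r)
  refine le_trans ?_ c.frBA
  exact Finset.sum_le_sum_of_subset_of_nonneg (Finset.subset_univ F)
    fun _ _ _ => Finset.sum_nonneg fun _ _ => sq_nonneg _

theorem WC.dYY (c : WC F A B b t s v r w cw) : L2 F (fun a => YY A B a a) (r * cw + s) := by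
  refine L2sub c.dBAA c.swap.dA fun a _ => ?_
  rw [YY_eq, Matrix.sub_apply]

/-! ### `ℓ¹` norms of diagonals -/

theorem WC.sA (c : WC F A B b t s v r w cw) : ∑ a ∈ F, |A a a| ≤ w * s := by
  have := c.dA.sum_abs_le c.d1
  exact this

/-- the `ℓ¹` size of the diagonal of `G` -/
def g1 (b t s w cw : ℝ) : ℝ := b * cw ^ 2 + cw * t + b * t ^ 2 + w * s

theorem WC.sGA (c : WC F A B b t s v r w cw) : ∑ a ∈ F, |GA A B a a| ≤ g1 b t s w cw := by
  have k1 : ∑ a ∈ F, |(A * B ^ 2 * A * A) a a| ≤ cw * (b * cw) := by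
    have e : A * B ^ 2 * A * A = (A * B) * (B * A ^ 2) := by
      simp only [sq, Matrix.mul_assoc]
    rw [e]
    exact Tilt.sum_abs_diag_mul_le _ _ F c.c0 (mul_nonneg c.b0 c.c0) c.frAB c.frBAA
  have k2 : ∑ a ∈ F, |(A * B ^ 2) a a| ≤ cw * t := by
    have e : A * B ^ 2 = (A * B) * B := by simp only [sq, Matrix.mul_assoc]
    rw [e]
    exact Tilt.sum_abs_diag_mul_le _ _ F c.c0 c.t0 c.frAB c.swap.frA
  have k3 : ∑ a ∈ F, |(A ^ 3) a a| ≤ b * t ^ 2 := by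
    have h1 : ∀ a ∈ F, |(A ^ 3) a a| ≤ b * (A ^ 2) a a := by
      intro a _
      have := c.p.opB.pow_diag_le c.p.symm c.b0 1 a
      simpa using this
    refine (Finset.sum_le_sum h1).trans ?_
    rw [← Finset.mul_sum]
    refine mul_le_mul_of_nonneg_left (le_trans ?_ c.p.T2) c.b0
    exact Finset.sum_le_sum_of_subset_of_nonneg (Finset.subset_univ F)
      fun a _ _ => Mat.sq_diag_nonneg c.p.symm a
  have k4 := c.sA
  have h1 : ∀ a ∈ F, |GA A B a a| ≤ |(A * B ^ 2 * A * A) a a| + |(A * B ^ 2) a a| +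
      |(A ^ 3) a a| + |A a a| := by
    intro a _
    rw [GA_eq, Matrix.add_apply, Matrix.sub_apply, Matrix.sub_apply]
    refine (abs_add_le _ _).trans (add_le_add ?_ le_rfl)
    refine (abs_sub _ _).trans (add_le_add ?_ le_rfl)
    exact abs_sub _ _
  refine (Finset.sum_le_sum h1).trans ?_
  rw [Finset.sum_add_distrib, Finset.sum_add_distrib, Finset.sum_add_distrib]
  unfold g1
  nlinarith

theorem WC.sGB (c : WC F A B b t s v r w cw) : ∑ a ∈ F, |GB A B a a| ≤ g1 b t s w cw := by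
  have := c.swap.sGA
  rw [GB_eq_transpose c.p.symm c.m.symm]
  exact this

/-! ### off-diagonal arrays -/

section off

variable {P : Finset (ι × ι)}

theorem WC.oA (c : WC F A B b t s v r w cw) (P : Finset (ι × ι)) :
    L2 P (fun p => A p.1 p.2) t := L2_of_frob c.t0 c.frA P

theorem WC.oKK (c : WC F A B b t s v r w cw) (hne : ∀ p ∈ P, p.1 ≠ p.2) :
    L2 P (fun p => KK A B p.1 p.2) cw :=
  (L2_of_frob c.c0 c.frAB P).of_le fun p hp => by
    unfold KK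
    rw [Matrix.sub_apply, Matrix.one_apply_ne (hne p hp), sub_zero]

theorem WC.oKK' (c : WC F A B b t s v r w cw) (hne : ∀ p ∈ P, p.1 ≠ p.2) :
    L2 P (fun p => KK A B p.2 p.1) cw :=
  (L2_of_frob' c.c0 c.frAB P).of_le fun p hp => by
    unfold KK
    rw [Matrix.sub_apply, Matrix.one_apply_ne (Ne.symm (hne p hp)), sub_zero]

/-- the off-diagonal size of `J` -/
def jo (b cw : ℝ) : ℝ := b ^ 2 * cw + 2 * b ^ 2

theorem frobJ0 (c : WC F A B b t s v r w cw) :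
    Mat.frob (B ^ 2 * A ^ 2 - B ^ 2 - A ^ 2) ≤ jo b cw ^ 2 := by
  have := c.b0; have := c.c0
  have h := frob_sub (by positivity) (sq_nonneg b)
    (frob_sub (by positivity) (sq_nonneg b) c.frBBAA c.swap.frA2) c.frA2
  refine h.trans (le_of_eq ?_)
  unfold jo; ring

theorem WC.oJJ (c : WC F A B b t s v r w cw) (hne : ∀ p ∈ P, p.1 ≠ p.2) :
    L2 P (fun p => JJ A B p.1 p.2) (jo b cw) := by
  have := c.b0; have := c.c0
  refine (L2_of_frob (by unfold jo; positivity) (frobJ0 c) P).of_le fun p hp => ?_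
  rw [JJ_eq, Matrix.add_apply, Matrix.one_apply_ne (hne p hp), add_zero]

theorem WC.oJJ' (c : WC F A B b t s v r w cw) (hne : ∀ p ∈ P, p.1 ≠ p.2) :
    L2 P (fun p => JJ A B p.2 p.1) (jo b cw) := by
  have := c.b0; have := c.c0
  refine (L2_of_frob' (by unfold jo; positivity) (frobJ0 c) P).of_le fun p hp => ?_
  rw [JJ_eq, Matrix.add_apply, Matrix.one_apply_ne (Ne.symm (hne p hp)), add_zero]

theorem WC.oOO (c : WC F A B b t s v r w cw) (hne : ∀ p ∈ P, p.1 ≠ p.2) :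
    L2 P (fun p => OO A p.1 p.2) (b ^ 2) :=
  (L2_of_frob (sq_nonneg _) c.frA2 P).of_le fun p hp => by
    unfold OO
    rw [Matrix.sub_apply, Matrix.one_apply_ne (hne p hp), sub_zero]

theorem WC.oOO' (c : WC F A B b t s v r w cw) (hne : ∀ p ∈ P, p.1 ≠ p.2) :
    L2 P (fun p => OO A p.2 p.1) (b ^ 2) :=
  (L2_of_frob' (sq_nonneg _) c.frA2 P).of_le fun p hp => by
    unfold OO
    rw [Matrix.sub_apply, Matrix.one_apply_ne (Ne.symm (hne p hp)), sub_zero]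

theorem WC.oUU (c : WC F A B b t s v r w cw) (P : Finset (ι × ι)) :
    L2 P (fun p => UU A B p.1 p.2) (cw ^ 2 + b ^ 2) := by
  have := c.b0; have := c.c0
  exact L2_of_frob (by positivity) c.frUU P

theorem WC.oUU' (c : WC F A B b t s v r w cw) (P : Finset (ι × ι)) :
    L2 P (fun p => UU A B p.2 p.1) (cw ^ 2 + b ^ 2) := by
  have := c.b0; have := c.c0
  exact L2_of_frob' (by positivity) c.frUU P

theorem WC.oYY (c : WC F A B b t s v r w cw) (P : Finset (ι × ι)) :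
    L2 P (fun p => YY A B p.1 p.2) (b * cw + t) := by
  have := c.b0; have := c.c0; have := c.t0
  exact L2_of_frob (by positivity) c.frYY P

theorem WC.oYY' (c : WC F A B b t s v r w cw) (P : Finset (ι × ι)) :
    L2 P (fun p => YY A B p.2 p.1) (b * cw + t) := by
  have := c.b0; have := c.c0; have := c.t0
  exact L2_of_frob' (by positivity) c.frYY P

theorem WC.oGA (c : WC F A B b t s v r w cw) (P : Finset (ι × ι)) :
    L2 P (fun p => GA A B p.1 p.2) (gK b t cw) := L2_of_frob (gK_nonneg c) c.frGA P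

theorem WC.oGB (c : WC F A B b t s v r w cw) (P : Finset (ι × ι)) :
    L2 P (fun p => GB A B p.1 p.2) (gK b t cw) := L2_of_frob (gK_nonneg c) c.frGB P

end off

end Vale.Agent.P049.TS.W945
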