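import Vale.Agent.P049.TS.W945.Dec

/-!
The pointwise upper bound of the increment of `W = tr (A² B²)`.
-/

set_option linter.unusedSectionVars false

namespace Vale.Agent.P049.TS.W945

open Matrix Finset

variable {ι : Type*} [Fintype ι] [DecidableEq ι]
variable {A B : Matrix ι ι ℝ} {a b : ι}

/-- `Ω_A = A² - 1` -/
noncomputable def OO (A : Matrix ι ι ℝ) : Matrix ι ι ℝ := A ^ 2 - 1
/-- `Ω_B Ω_A` -/
noncomputable def JJ (A B : Matrix ι ι ℝ) : Matrix ι ι ℝ := (B ^ 2 - 1) * (A ^ 2 - 1)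
/-- `A B - 1` -/
noncomputable def KK (A B : Matrix ι ι ℝ) : Matrix ι ι ℝ := A * B - 1
/-- `A Ω_B Ω_A` -/
noncomputable def GA (A B : Matrix ι ι ℝ) : Matrix ι ι ℝ := A * JJ A B
/-- `Ω_B Ω_A B` -/
noncomputable def GB (A B : Matrix ι ι ℝ) : Matrix ι ι ℝ := JJ A B * B
/-- `A Ω_B A` -/
noncomputable def UU (A B : Matrix ι ι ℝ) : Matrix ι ι ℝ := A * (B ^ 2 - 1) * A
/-- `B Ω_A` -/
noncomputable def YY (A B : Matrix ι ι ℝ) : Matrix ι ι ℝ := B * (A ^ 2 - 1)

theorem trace_vec_mul (x y : ι → ℝ) (J : Matrix ι ι ℝ) :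
    (vecMulVec x y * J).trace = y ⬝ᵥ (J *ᵥ x) := by
  rw [Matrix.vecMulVec_mul, Matrix.trace_vecMulVec, dotProduct_comm, Matrix.dotProduct_mulVec]

/-! ### the linear terms -/

theorem trace_h0 (hA : A.IsSymm) (J : Matrix ι ι ℝ) :
    (h0 A B a b * J).trace = uu A a b * ((A * J) a b + (A * J) b a) +
      uu B a b * ((J * B) b a + (J * B) a b) := by
  unfold h0
  simp only [Matrix.add_mul, Matrix.smul_mul, Matrix.trace_add, Matrix.trace_smul,
    trace_vec_mul, smul_eq_mul, dot_col_ev hA, dot_ev_col]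
  ring

theorem trace_h1 (hA : A.IsSymm) (J : Matrix ι ι ℝ) :
    (h1 A B a b * J).trace = rr A a b * A b b * (A * J) a a + rr A a b * A a a * (A * J) b b +
      (rr B a b * B b b * (J * B) a a + rr B a b * B a a * (J * B) b b) := by
  unfold h1
  simp only [Matrix.add_mul, Matrix.smul_mul, Matrix.trace_add, Matrix.trace_smul,
    trace_vec_mul, smul_eq_mul, dot_col_ev hA, dot_ev_col]

theorem trace_h3 (J : Matrix ι ι ℝ) :
    (h3 A B a b * J).trace =
      (KK A B a a * (rr B a b * B b b * (rr A a b * A b b) * J a a +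
          rr B a b * B b b * uu A a b * J a b + uu B a b * (rr A a b * A b b) * J b a +
          uu B a b * uu A a b * J b b) +
        KK A B a b * (uu B a b * (rr A a b * A b b) * J a a + uu B a b * uu A a b * J a b +
          rr B a b * B a a * (rr A a b * A b b) * J b a + rr B a b * B a a * uu A a b * J b b)) +
      (KK A B b a * (rr B a b * B b b * uu A a b * J a a +
          rr B a b * B b b * (rr A a b * A a a) * J a b + uu B a b * uu A a b * J b a +
          uu B a b * (rr A a b * A a a) * J b b) +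
        KK A B b b * (uu B a b * uu A a b * J a a + uu B a b * (rr A a b * A a a) * J a b +
          rr B a b * B a a * uu A a b * J b a +
          rr B a b * B a a * (rr A a b * A a a) * J b b)) := by
  unfold h3 m0 m1 KK
  simp only [Matrix.add_mul, Matrix.smul_mul, Matrix.trace_add, Matrix.trace_smul,
    trace_vec_mul, smul_eq_mul, Matrix.mulVec_add, Matrix.mulVec_smul, add_dotProduct,
    dotProduct_add, smul_dotProduct, dotProduct_smul, dot_ev_ev]
  ring

/-- `bet` on `h0` -/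
theorem bet_h0 (hA : A.IsSymm) (hB : B.IsSymm) :
    bet A B (h0 A B a b) (h0 A B a b) =
      uu A a b ^ 2 * (OO A b b * UU A B a a + OO A a a * UU A B b b +
        OO A a b * UU A B a b + OO A b a * UU A B b a) +
      uu B a b ^ 2 * (OO B b b * UU B A a a + OO B a a * UU B A b b +
        OO B b a * UU B A b a + OO B a b * UU B A a b) +
      2 * (uu A a b * uu B a b) * (YY A B a b * YY B A a b + YY A B b b * YY B A a a +
        YY A B a a * YY B A b b + YY A B b a * YY B A b a) := by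
  have sA : (A ^ 2 - 1).IsSymm := (Mat.IsSymm_pow hA 2).sub Matrix.isSymm_one
  have sB : (B ^ 2 - 1).IsSymm := (Mat.IsSymm_pow hB 2).sub Matrix.isSymm_one
  have f1 : ∀ x y, ((A ^ 2 - 1) * B : Matrix ι ι ℝ) x y = (B * (A ^ 2 - 1) : Matrix ι ι ℝ) y x := by
    intro x y
    have : ((A ^ 2 - 1) * B) = (B * (A ^ 2 - 1))ᵀ := by
      rw [Matrix.transpose_mul, hB.eq, sA.eq]
    rw [this]; rfl
  have f2 : ∀ x y, ((B ^ 2 - 1) * A : Matrix ι ι ℝ) x y = (A * (B ^ 2 - 1) : Matrix ι ι ℝ) y x := by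
    intro x y
    have : ((B ^ 2 - 1) * A) = (A * (B ^ 2 - 1))ᵀ := by
      rw [Matrix.transpose_mul, hA.eq, sB.eq]
    rw [this]; rfl
  unfold h0 UU YY OO
  simp only [bet_add_left, bet_add_right, bet_smul_left, bet_smul_right, bet_vec,
    dot_ev_ev, dot_col_ev hA, dot_col_ev hB, dot_ev_col, dot_col_col hA, dot_col_col hB, f1, f2]
  ring

/-! ### scalar bounds -/

theorem rr_abs_le (h : PairOK A a b) : |rr A a b| ≤ 8 / 5 := by
  have h1 := h.inv_le
  have h2 : 0 ≤ (al A a b)⁻¹ := (inv_pos.2 h.al_pos).le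
  unfold rr
  rwa [abs_of_nonneg h2]

theorem uu_abs_le (h : PairOK A a b) : |uu A a b| ≤ 9 / 5 := h.abs_off_le

theorem mul_le_abs {c C x : ℝ} (hc : |c| ≤ C) : c * x ≤ C * |x| :=
  (le_abs_self _).trans (by rw [abs_mul]; exact mul_le_mul_of_nonneg_right hc (abs_nonneg _))

theorem abs_mul_le {c d C D : ℝ} (hc : |c| ≤ C) (hd : |d| ≤ D) : |c * d| ≤ C * D := by
  rw [abs_mul]; exact mul_le_mul hc hd (abs_nonneg _) ((abs_nonneg _).trans hc)

/-- the remainder of the `K J` terms -/
noncomputable def R12 (A B : Matrix ι ι ℝ) (a b : ι) : ℝ :=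
  (|A b b| * |B b b| * (|KK A B a a| * |JJ A B a a|) +
    |B b b| * (|KK A B a a| * |JJ A B a b|) + |A b b| * (|KK A B a a| * |JJ A B b a|)) +
  (|A b b| * (|KK A B a b| * |JJ A B a a|) +
    |A b b| * |B a a| * (|KK A B a b| * |JJ A B b a|) + |B a a| * (|KK A B a b| * |JJ A B b b|)) +
  (|B b b| * (|KK A B b a| * |JJ A B a a|) +
    |A a a| * |B b b| * (|KK A B b a| * |JJ A B a b|) + |A a a| * (|KK A B b a| * |JJ A B b b|)) +
  (|A a a| * (|KK A B b b| * |JJ A B a b|) + |B a a| * (|KK A B b b| * |JJ A B b a|) +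
    |A a a| * |B a a| * (|KK A B b b| * |JJ A B b b|))

theorem h3_le (hp : PairOK A a b) (hm : PairOK B a b) :
    2 * (h3 A B a b * JJ A B).trace ≤
      2 * (uu A a b * uu B a b) * (KK A B a a * JJ A B b b + KK A B b b * JJ A B a a) +
      7 * (|KK A B a b| * |JJ A B a b| + |KK A B b a| * |JJ A B b a| + R12 A B a b) := by
  have ra := rr_abs_le hp
  have rb := rr_abs_le hm
  have ua := uu_abs_le hp
  have ub := uu_abs_le hm
  have rab := abs_mul_le ra rb
  have uab := abs_mul_le ua ub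
  have rua := abs_mul_le ra ub
  have rub := abs_mul_le rb ua
  -- one term
  have T : ∀ c x y z w : ℝ, |c| ≤ 81 / 25 →
      2 * (c * (x * y * (z * w))) ≤ 7 * (|x| * |y| * (|z| * |w|)) := by
    intro c x y z w hc
    have h1 := mul_le_abs (x := x * y * (z * w)) hc
    have h2 := abs_nonneg (x * y * (z * w))
    rw [← abs_mul x y, ← abs_mul z w, ← abs_mul]
    linarith
  have T' : ∀ c x z w : ℝ, |c| ≤ 81 / 25 →
      2 * (c * (x * (z * w))) ≤ 7 * (|x| * (|z| * |w|)) := by
    intro c x z w hc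
    have := T c x 1 z w hc
    simpa using this
  have T'' : ∀ c z w : ℝ, |c| ≤ 81 / 25 → 2 * (c * (z * w)) ≤ 7 * (|z| * |w|) := by
    intro c z w hc
    have := T' c 1 z w hc
    simpa using this
  have c1 : |rr A a b * rr B a b| ≤ 81 / 25 := rab.trans (by norm_num)
  have c2 : |uu A a b * uu B a b| ≤ 81 / 25 := uab.trans (by norm_num)
  have c3 : |rr A a b * uu B a b| ≤ 81 / 25 := rua.trans (by norm_num)
  have c4 : |rr B a b * uu A a b| ≤ 81 / 25 := rub.trans (by norm_num)
  rw [trace_h3]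
  unfold R12
  have t1 := T _ (A b b) (B b b) (KK A B a a) (JJ A B a a) c1
  have t2 := T' _ (B b b) (KK A B a a) (JJ A B a b) c4
  have t3 := T' _ (A b b) (KK A B a a) (JJ A B b a) c3
  have t4 := T' _ (A b b) (KK A B a b) (JJ A B a a) c3
  have t5 := T _ (A b b) (B a a) (KK A B a b) (JJ A B b a) c1
  have t6 := T' _ (B a a) (KK A B a b) (JJ A B b b) c4
  have t7 := T' _ (B b b) (KK A B b a) (JJ A B a a) c4
  have t8 := T _ (A a a) (B b b) (KK A B b a) (JJ A B a b) c1
  have t9 := T' _ (A a a) (KK A B b a) (JJ A B b b) c3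
  have t10 := T' _ (A a a) (KK A B b b) (JJ A B a b) c3
  have t11 := T' _ (B a a) (KK A B b b) (JJ A B b a) c4
  have t12 := T _ (A a a) (B a a) (KK A B b b) (JJ A B b b) c1
  have t13 := T'' _ (KK A B a b) (JJ A B a b) c2
  have t14 := T'' _ (KK A B b a) (JJ A B b a) c2
  linarith

theorem h1_le (hA : A.IsSymm) (hp : PairOK A a b) (hm : PairOK B a b) :
    2 * (h1 A B a b * JJ A B).trace ≤
      4 * ((|A b b| * |GA A B a a| + |A a a| * |GA A B b b|) +
        (|B b b| * |GB A B a a| + |B a a| * |GB A B b b|)) := by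
  have ra := rr_abs_le hp
  have rb := rr_abs_le hm
  have T : ∀ c x y : ℝ, |c| ≤ 8 / 5 → 2 * (c * (x * y)) ≤ 4 * (|x| * |y|) := by
    intro c x y hc
    have h1 := mul_le_abs (x := x * y) hc
    have h2 := abs_nonneg (x * y)
    rw [← abs_mul]
    linarith
  rw [trace_h1 hA]
  have t1 := T _ (A b b) (GA A B a a) ra
  have t2 := T _ (A a a) (GA A B b b) ra
  have t3 := T _ (B b b) (GB A B a a) rb
  have t4 := T _ (B a a) (GB A B b b) rb
  unfold GA GB at *
  linarith

/-- the main terms which are products of an `a`-array and a `b`-array -/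
noncomputable def Mn (A B : Matrix ι ι ℝ) (a b : ι) : ℝ :=
  2 * (uu A a b * uu B a b) * (KK A B a a * JJ A B b b + KK A B b b * JJ A B a a) +
  uu A a b ^ 2 * (OO A a a * UU A B b b + OO A b b * UU A B a a) +
  uu B a b ^ 2 * (OO B a a * UU B A b b + OO B b b * UU B A a a) +
  2 * (uu A a b * uu B a b) * (YY A B a a * YY B A b b + YY A B b b * YY B A a a)

/-- the main first order terms -/
noncomputable def Fo (A B : Matrix ι ι ℝ) (a b : ι) : ℝ :=
  2 * (uu A a b * (GA A B a b + GA A B b a)) + 2 * (uu B a b * (GB A B a b + GB A B b a))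

/-- the remainder -/
noncomputable def Rm1 (A B : Matrix ι ι ℝ) (a b : ι) : ℝ :=
  4 * ((|A b b| * |GA A B a a| + |A a a| * |GA A B b b|) +
    (|B b b| * |GB A B a a| + |B a a| * |GB A B b b|)) +
  7 * (|KK A B a b| * |JJ A B a b| + |KK A B b a| * |JJ A B b a| + R12 A B a b) +
  4 * (|OO A a b| * |UU A B a b| + |OO A b a| * |UU A B b a|) +
  4 * (|OO B a b| * |UU B A a b| + |OO B b a| * |UU B A b a|) +
  7 * (|YY A B a b| * |YY B A a b| + |YY A B b a| * |YY B A b a|)

/-- **the pointwise bound of the increment of `W`** -/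
theorem W_pt (hab : a ≠ b) (hA : A.IsSymm) (hB : B.IsSymm) (hp : PairOK A a b)
    (hm : PairOK B a b) :
    (upd A a b ^ 2 * upd B a b ^ 2).trace - (A ^ 2 * B ^ 2).trace ≤
      ((upd A a b ^ 2).trace - (A ^ 2).trace) + ((upd B a b ^ 2).trace - (B ^ 2).trace) + 2 +
      Fo A B a b + Mn A B a b + Rm1 A B a b +
      2 * √(sn A B (h0 A B a b)) * √(sn A B (h1 A B a b + h3 A B a b)) +
      sn A B (h1 A B a b + h3 A B a b) := by
  rw [W_increment hab hA hp.al_ne hB hm.al_ne, hm_eq hA]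
  have k1 := bet_split_le hA hB (h0 A B a b) (h1 A B a b + h3 A B a b)
    (Real.sqrt_nonneg (sn A B (h0 A B a b)))
    (Real.sqrt_nonneg (sn A B (h1 A B a b + h3 A B a b)))
    (Real.sq_sqrt (sn_nonneg A B _)).ge (Real.sq_sqrt (sn_nonneg A B _)).ge
  rw [Real.sq_sqrt (sn_nonneg A B (h1 A B a b + h3 A B a b)), bet_h0 hA hB] at k1
  have k2 := h3_le hp hm
  have k3 := h1_le hA hp hm
  have k4 := trace_h0 (B := B) (a := a) (b := b) hA (JJ A B)
  have ua := uu_abs_le hp
  have ub := uu_abs_le hm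
  have uab := abs_mul_le ua ub
  have ua2 : |uu A a b ^ 2| ≤ 81 / 25 := by
    rw [sq]; exact (abs_mul_le ua ua).trans (by norm_num)
  have ub2 : |uu B a b ^ 2| ≤ 81 / 25 := by
    rw [sq]; exact (abs_mul_le ub ub).trans (by norm_num)
  have c2 : |uu A a b * uu B a b| ≤ 81 / 25 := uab.trans (by norm_num)
  have T : ∀ c x y : ℝ, |c| ≤ 81 / 25 → c * (x * y) ≤ 4 * (|x| * |y|) := by
    intro c x y hc
    have h1 := mul_le_abs (x := x * y) hc
    have h2 := abs_nonneg (x * y)
    rw [← abs_mul]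
    linarith
  have T2 : ∀ c x y : ℝ, |c| ≤ 81 / 25 → 2 * (c * (x * y)) ≤ 7 * (|x| * |y|) := by
    intro c x y hc
    have h1 := mul_le_abs (x := x * y) hc
    have h2 := abs_nonneg (x * y)
    rw [← abs_mul]
    linarith
  have t1 := T _ (OO A a b) (UU A B a b) ua2
  have t2 := T _ (OO A b a) (UU A B b a) ua2
  have t3 := T _ (OO B a b) (UU B A a b) ub2
  have t4 := T _ (OO B b a) (UU B A b a) ub2
  have t5 := T2 _ (YY A B a b) (YY B A a b) c2
  have t6 := T2 _ (YY A B b a) (YY B A b a) c2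
  have e1 : ((h0 A B a b + (h1 A B a b + h3 A B a b)) * ((B ^ 2 - 1) * (A ^ 2 - 1))).trace
      = (h0 A B a b * JJ A B).trace + (h1 A B a b * JJ A B).trace +
        (h3 A B a b * JJ A B).trace := by
    unfold JJ
    rw [Matrix.add_mul, Matrix.add_mul, Matrix.trace_add, Matrix.trace_add]
    ring
  rw [e1, k4]
  unfold Fo Mn Rm1
  have e2 : GA A B = A * JJ A B := rfl
  have e3 : GB A B = JJ A B * B := rfl
  rw [← e2, ← e3]
  linarith

end Vale.Agent.P049.TS.W945
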